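import Vale.Agent.P011Z.Cl.Prc
import Vale.Agent.P011.D4.Maps

/-!
Commutants: the part about octonions.
-/

open Matrix Module

noncomputable section

namespace Vale.Agent.P011Z.Cl.Comx

open Vale.Agent.P011.D4 Vale.Agent.P011.D4.Oct Vale.Agent.P011.E6 Vale.Agent.P011.E6.Alb
  Vale.Agent.P011.MPQ Vale.Agent.P011.D4.H24

theorem oa_ob (σ : Gq) (m : Fin 8) : oa σ (ob m) = ob m := by
  fin_cases m <;> apply ext8 <;> simp [oa, ob]

theorem oa_one (σ : Gq) : oa σ 1 = 1 := (hom_props (oa_semi σ) (oa_mul σ)).1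

theorem oa_star (σ : Gq) (x : O) : oa σ (star x) = star (oa σ x) :=
  (hom_props (oa_semi σ) (oa_mul σ)).2.1 x

theorem oa_bil (σ : Gq) (x y : O) : bil (oa σ x) (oa σ y) = σ (bil x y) :=
  (hom_props (oa_semi σ) (oa_mul σ)).2.2.2 x y

theorem norm_ob (m : Fin 8) :
    Oct.norm (ob m : O) = 1 ∨ (Oct.norm (ob m : O) = -1 ∧ bil 1 (ob m : O) = 0) := by
  fin_cases m <;> simp [ob, Oct.norm, nrd, bil_eq]

/-- The rational elements of norm one span the octonions. -/
theorem span_ind {P : O → Prop} (hadd : ∀ x y, P x → P y → P (x + y))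
    (hsm : ∀ (t : Om) x, P x → P (t • x)) (h : ∀ a : O, Oct.norm a = 1 → (∀ σ, oa σ a = a) → P a)
    (x : O) : P x := by
  have h1 : P 1 := h 1 Oct.norm_one oa_one
  have hb : ∀ m, P (ob m) := by
    intro m
    rcases norm_ob m with hm | ⟨hm, hb⟩
    · exact h _ hm fun σ => oa_ob σ m
    · have h2 : P ((5 / 4 : Om) • (1 : O) + (3 / 4 : Om) • ob m) := by
        refine h _ ?_ fun σ => ?_
        · rw [Oct.norm_add, Oct.norm_smul, Oct.norm_smul, bil_smul_left, bil_smul_right, hm, hb,
            Oct.norm_one]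
          norm_num
        · rw [(oa_semi σ).add, (oa_semi σ).smul, (oa_semi σ).smul, oa_one, oa_ob, map_div₀,
            map_div₀, map_ofNat, map_ofNat, map_ofNat]
      have h3 := hadd _ _ (hsm (4 / 3) _ h2) (hsm (-5 / 3) _ h1)
      have e : (4 / 3 : Om) • ((5 / 4 : Om) • (1 : O) + (3 / 4 : Om) • ob m) +
          (-5 / 3 : Om) • (1 : O) = ob m := by module
      rwa [e] at h3
  rw [← sum_oc x]
  refine Finset.sum_induction _ P hadd ?_ fun m _ => hsm _ _ (hb m)
  have := hsm 0 1 h1
  rwa [zero_smul] at this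

/-- The centre of the octonions. -/
theorem center {u : O} (h : ∀ a, a * u = u * a) : u = u.fst.re • (1 : O) := by
  have h1 := h (ob 1)
  have h2 := h (ob 2)
  have a1 := congrArg (fun x : O => x.fst.imJ) h1
  have a2 := congrArg (fun x : O => x.fst.imK) h1
  have a3 := congrArg (fun x : O => x.snd.re) h1
  have a4 := congrArg (fun x : O => x.snd.imI) h1
  have a5 := congrArg (fun x : O => x.snd.imJ) h1
  have a6 := congrArg (fun x : O => x.snd.imK) h1
  have a7 := congrArg (fun x : O => x.fst.imK) h2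
  simp [ob] at a1 a2 a3 a4 a5 a6 a7
  apply ext8 <;> simp
  · linear_combination (-1 / 2 : Om) * a7
  · linear_combination (1 / 2 : Om) * a2
  · linear_combination (1 / 2 : Om) * a1
  · linear_combination (1 / 2 : Om) * a4
  · linear_combination (1 / 2 : Om) * a3
  · linear_combination (-1 / 2 : Om) * a6
  · linear_combination (-1 / 2 : Om) * a5

/-- A linear map which commutes with the rational multiplications is a scalar. -/
theorem scalar {t : O → O} (ht : IsLinearMap Om t)
    (hL : ∀ a : O, Oct.norm a = 1 → (∀ σ, oa σ a = a) → ∀ y, t (a * y) = a * t y)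
    (hR : ∀ a : O, Oct.norm a = 1 → (∀ σ, oa σ a = a) → ∀ y, t (y * a) = t y * a) :
    ∃ z : Om, ∀ y, t y = z • y := by
  have h1 : ∀ a, t a = a * t 1 := by
    refine span_ind (fun x y hx hy => ?_) (fun s x hx => ?_) fun a ha hr => ?_
    · rw [ht.map_add, hx, hy, add_mul]
    · rw [ht.map_smul, hx, smul_mul_oct]
    · rw [← hL a ha hr, mul_one]
  have h2 : ∀ a, t a = t 1 * a := by
    refine span_ind (fun x y hx hy => ?_) (fun s x hx => ?_) fun a ha hr => ?_
    · rw [ht.map_add, hx, hy, mul_add]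
    · rw [ht.map_smul, hx, mul_smul_oct]
    · rw [← hR a ha hr, one_mul]
  have h3 := center (u := t 1) fun a => (h1 a).symm.trans (h2 a)
  refine ⟨(t 1).fst.re, fun y => ?_⟩
  rw [h1 y]
  nth_rw 1 [h3]
  rw [mul_smul_oct, mul_one]

theorem tr_cyc (x y z : O) : bil (x * y * z) 1 = bil (y * z * x) 1 := by
  rw [← tri2 x y z, tri1]

/-- The Moufang triple. -/
theorem tr_mou {a : O} (ha : Oct.norm a = 1) (x y z : O) :
    bil (star a * x * star a * (a * y) * (z * a)) 1 = bil (x * y * z) 1 := by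
  rw [← tri1, ← tri1, moufang, star_mul, star_mul, ← flex, bil_mul_mul_right, bil_mul_mul_left,
    Oct.norm_star, ha, one_mul, one_mul]

end Vale.Agent.P011Z.Cl.Comx

end
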