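import Vale.Agent.P011Z.Cl.Com.Oc

/-!
Commutants: some rational elements, and the common part of the proofs.
-/

open Matrix Module

noncomputable section

namespace Vale.Agent.P011Z.Cl.Comx

open Vale.Agent.P011.D4 Vale.Agent.P011.D4.Oct Vale.Agent.P011.E6 Vale.Agent.P011.E6.Alb

/-- Rational linear maps which preserve the norm. -/
structure Rt (f : J → J) : Prop where
  lin : IsLinearMap Om f
  cub : ∀ x, cub (f x) = cub x
  rat : ∀ σ x, f (aj σ x) = aj σ (f x)

theorem eq_zero_of_cub {x : J} (h : ∀ y, cub (x + y) = cub y) : x = 0 := by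
  have h0 : cub x = 0 := by simpa using h 0
  have h1 : ∀ y, tf x (adj y) = 0 := by
    intro y
    have a1 := h y
    have a2 := h (-y)
    rw [cub_add] at a1 a2
    rw [tf_neg_right, adj_neg] at a2
    linear_combination (1 / 2 : Om) * a1 + (1 / 2 : Om) * a2 - h0
  have h2 : ∀ y, cross x y = 0 := by
    intro y
    refine eq_zero_of_tf fun z => ?_
    have a1 := h1 (y + z)
    rw [adj_add, tf_add_right, tf_add_right, h1, h1] at a1
    rw [tf_cross]
    linear_combination a1
  have a := h2 ⟨1, 0, 0, 0, 0, 0⟩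
  have b := h2 ⟨0, 1, 0, 0, 0, 0⟩
  have c := h2 ⟨0, 0, 1, 0, 0, 0⟩
  ext1
  · simpa [cross] using congrArg Alb.d3 b
  · simpa [cross] using congrArg Alb.d3 a
  · simpa [cross] using congrArg Alb.d2 a
  · simpa [cross] using congrArg Alb.x1 a
  · simpa [cross] using congrArg Alb.x2 b
  · simpa [cross] using congrArg Alb.x3 c

theorem Rt.ex {f : J → J} (h : Rt f) : ∃ g : J ≃ₗ[Om] J, ∀ x, g x = f x := by
  have := fd_J
  have hi : Function.Injective (h.lin.mk' f) := by
    rw [← LinearMap.ker_eq_bot, LinearMap.ker_eq_bot']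
    intro x hx
    refine eq_zero_of_cub fun y => ?_
    have hx' : f x = 0 := hx
    rw [← h.cub, h.lin.map_add, hx', zero_add, h.cub]
  exact ⟨LinearEquiv.ofInjectiveEndo _ hi, fun _ => rfl⟩

theorem aj_eq (σ : Gq) (x : J) :
    aj σ x = ⟨σ x.d1, σ x.d2, σ x.d3, oa σ x.x1, oa σ x.x2, oa σ x.x3⟩ := rfl

theorem dg_aj (σ : Gq) (x : J) (i : Fin 3) : dg (aj σ x) i = σ (dg x i) := by
  rw [aj, al, dg_jm]

theorem sl_aj (σ : Gq) (x : J) (i : Fin 3) : sl (aj σ x) i = oa σ (sl x i) := by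
  rw [aj, al, sl_jm]

theorem dg_sc (z : Fin 3 → Om) (x : J) (i : Fin 3) :
    dg (sc z x) i = z (i + 1) * z (i + 2) / z i * dg x i := by
  rw [sc, dg_jm]

theorem sl_sc (z : Fin 3 → Om) (x : J) (i : Fin 3) : sl (sc z x) i = z i • sl x i := by
  rw [sc, sl_jm]

theorem dg_ee (i j : Fin 3) : dg (ee i) j = if j = i then 1 else 0 := by
  rw [ee, dg_jm, Pi.single_apply]

theorem sl_ee (i j : Fin 3) : sl (ee i) j = 0 := by
  rw [ee, sl_jm, Pi.zero_apply]

theorem dg_ins (i j : Fin 3) (y : O) : dg (ins i y) j = 0 := by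
  rw [ins, dg_jm, Pi.zero_apply]

theorem sl_ins (i j : Fin 3) (y : O) : sl (ins i y) j = if j = i then y else 0 := by
  rw [ins, sl_jm, Pi.single_apply]

theorem dg_smul (t : Om) (x : J) (i : Fin 3) : dg (t • x) i = t * dg x i := by
  rw [dg_lin.map_smul, Pi.smul_apply, smul_eq_mul]

theorem sl_smul (t : Om) (x : J) (i : Fin 3) : sl (t • x) i = t • sl x i := by
  rw [sl_lin.map_smul, Pi.smul_apply]

theorem dg_add (x y : J) (i : Fin 3) : dg (x + y) i = dg x i + dg y i := by
  rw [dg_lin.map_add, Pi.add_apply]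

theorem sl_add (x y : J) (i : Fin 3) : sl (x + y) i = sl x i + sl y i := by
  rw [sl_lin.map_add, Pi.add_apply]

theorem sc_ee (z : Fin 3 → Om) (i : Fin 3) :
    sc z (ee i) = (z (i + 1) * z (i + 2) / z i) • ee i := by
  refine j_ext (fun j => ?_) fun j => ?_
  · rw [dg_sc, dg_smul, dg_ee]
    split_ifs with h
    · rw [h]
    · rw [mul_zero, mul_zero]
  · rw [sl_sc, sl_smul, sl_ee, smul_zero, smul_zero]

theorem rt_sc {z : Fin 3 → Om} (hp : z 0 * z 1 * z 2 = 1) (hr : ∀ (σ : Gq) i, σ (z i) = z i) :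
    Rt (sc z) := by
  have hz : ∀ i, z i ≠ 0 := by
    intro i hi
    fin_cases i <;> simp only [Fin.zero_eta, Fin.mk_one, Fin.reduceFinMk] at hi <;>
      simp [hi] at hp
  refine ⟨sc_lin z, fun x => by rw [cub_sc hz, hp, one_mul], fun σ x => ?_⟩
  refine j_ext (fun i => ?_) fun i => ?_
  · rw [dg_sc, dg_aj, dg_aj, dg_sc, map_mul, map_div₀, map_mul, hr, hr, hr]
  · rw [sl_sc, sl_aj, sl_aj, sl_sc, (oa_semi σ).smul, hr]

/-- The signs. -/
def sg (j i : Fin 3) : Om := if i = j then 1 else -1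

theorem rt_sg (j : Fin 3) : Rt (sc (sg j)) := by
  refine rt_sc ?_ fun σ i => ?_
  · fin_cases j <;> simp [sg]
  · rw [sg]
    split_ifs
    · exact map_one σ
    · rw [map_neg, map_one]

theorem sg_co (j i : Fin 3) : sg j (i + 1) * sg j (i + 2) / sg j i = 1 := by
  fin_cases j <;> fin_cases i <;> simp [sg]

theorem sg_ee (j i : Fin 3) : sc (sg j) (ee i) = ee i := by
  rw [sc_ee, sg_co, one_smul]

/-- Maps of the slots. -/
def tj (t : Fin 3 → O → O) (x : J) : J := jm (dg x) fun i => t i (sl x i)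

theorem rt_tj {t : Fin 3 → O → O} (hl : ∀ i, IsLinearMap Om (t i))
    (hn : ∀ i y, Oct.norm (t i y) = Oct.norm y)
    (ht : ∀ x y z, bil (t 0 x * t 1 y * t 2 z) 1 = bil (x * y * z) 1)
    (hr : ∀ (σ : Gq) i y, t i (oa σ y) = oa σ (t i y)) :
    Rt (tj t) ∧ (∀ i, tj t (ee i) = ee i) ∧ ∀ i y, tj t (ins i y) = ins i (t i y) := by
  have hd : ∀ x i, dg (tj t x) i = dg x i := fun x i => by rw [tj, dg_jm]
  have hs : ∀ x i, sl (tj t x) i = t i (sl x i) := fun x i => by rw [tj, sl_jm]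
  refine ⟨⟨⟨fun x y => j_ext (fun i => ?_) fun i => ?_, fun s x => j_ext (fun i => ?_) fun i => ?_⟩,
    fun x => ?_, fun σ x => j_ext (fun i => ?_) fun i => ?_⟩,
    fun i => j_ext (fun j => hd _ _) fun j => ?_, fun i y => j_ext (fun j => ?_) fun j => ?_⟩
  · rw [dg_add, hd, hd, hd, dg_add]
  · rw [sl_add, hs, hs, hs, sl_add, (hl i).map_add]
  · rw [dg_smul, hd, hd, dg_smul]
  · rw [sl_smul, hs, hs, sl_smul, (hl i).map_smul]
  · rw [cub_eq, cub_eq]
    simp only [hd, hs, hn, ht]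
  · rw [hd, dg_aj, dg_aj, hd]
  · rw [hs, sl_aj, sl_aj, hs, hr]
  · rw [hs, sl_ee, (hl j).map_zero]
  · rw [hd, dg_ins, dg_ins]
  · rw [hs, sl_ins, sl_ins]
    split_ifs with h
    · rw [h]
    · exact (hl j).map_zero

/-- The three maps of the Moufang identity. -/
def mo (a : O) : Fin 3 → O → O := ![fun x => star a * x * star a, fun x => a * x, fun x => x * a]

theorem rt_mo {a : O} (ha : Oct.norm a = 1) (hr : ∀ σ, oa σ a = a) (k : Fin 3) :
    Rt (tj fun i => mo a (i + k)) ∧ (∀ i, tj (fun i => mo a (i + k)) (ee i) = ee i) ∧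
      ∀ i y, tj (fun i => mo a (i + k)) (ins i y) = ins i (mo a (i + k) y) := by
  have hl : ∀ i, IsLinearMap Om (mo a i) := by
    intro i
    fin_cases i
    · exact ⟨fun x y => by simp [mo, mul_add, add_mul],
        fun s x => by simp only [mo, Fin.zero_eta, cons_val_zero, mul_smul_oct, smul_mul_oct]⟩
    · exact ⟨fun x y => mul_add a x y, fun s x => mul_smul_oct s a x⟩
    · exact ⟨fun x y => add_mul x y a, fun s x => smul_mul_oct s x a⟩
  have hn : ∀ i y, Oct.norm (mo a i y) = Oct.norm y := by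
    intro i y
    fin_cases i <;> simp [mo, Oct.norm_mul, ha]
  have hq : ∀ (σ : Gq) i y, mo a i (oa σ y) = oa σ (mo a i y) := by
    intro σ i y
    fin_cases i <;> simp [mo, oa_mul, oa_star, hr]
  refine rt_tj (fun i => hl _) (fun i => hn _) (fun x y z => ?_) fun σ i => hq σ _
  fin_cases k
  · exact tr_mou ha x y z
  · exact (tr_cyc _ _ _).symm.trans ((tr_mou ha z x y).trans (tr_cyc z x y))
  · exact (tr_cyc _ _ _).trans ((tr_mou ha y z x).trans (tr_cyc x y z).symm)

theorem ins_inj {i : Fin 3} {x y : O} (h : ins i x = ins i y) : x = y := by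
  have := congrArg (fun w => sl w i) h
  simpa only [sl_ins, if_true] using this

theorem neg_self {x : O} (h : (-1 : Om) • x = x) : x = 0 := by
  have e : x = (2⁻¹ : Om) • (x - (-1 : Om) • x) := by module
  rw [e, h, sub_self, smul_zero]

/-- The common part. -/
theorem core {T : J → J} (hT : IsLinearMap Om T)
    (h : ∀ f, Rt f → (∀ i, f (ee i) = ee i) → ∀ x, T (f x) = f (T x)) :
    (∀ i j, sl (T (ee i)) j = 0) ∧ ∃ z : Fin 3 → Om, ∀ i y, T (ins i y) = z i • ins i y := by
  have n1 : ∀ j : Fin 3, j ≠ j + 1 := by decide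
  refine ⟨fun i j => ?_, ?_⟩
  · have a := congrArg (fun w => sl w j) (h _ (rt_sg (j + 1)) (sg_ee _) (ee i))
    simp only [sg_ee, sl_sc, sg, if_neg (n1 j)] at a
    exact neg_self a.symm
  have hs : ∀ i y, T (ins i y) = ins i (sl (T (ins i y)) i) := by
    intro i y
    have a : ∀ j, sg j i • T (ins i y) = sc (sg j) (T (ins i y)) := fun j => by
      rw [← h _ (rt_sg j) (sg_ee _), sc_ins, hT.map_smul]
    refine j_ext (fun j => ?_) fun j => ?_
    · have b := congrArg (fun w => dg w j) (a (i + 1))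
      simp only [dg_smul, dg_sc, sg_co] at b
      rw [sg, if_neg (n1 i)] at b
      rw [dg_ins]
      linear_combination (-1 / 2 : Om) * b
    · rw [sl_ins]
      split_ifs with hj
      · rw [hj]
      · have b := congrArg (fun w => sl w j) (a j)
        simp only [sl_smul, sl_sc] at b
        rw [sg, sg, if_neg (Ne.symm hj), if_pos rfl, one_smul] at b
        exact neg_self b
  have hz : ∀ i, ∃ z : Om, ∀ y, sl (T (ins i y)) i = z • y := by
    intro i
    have key : ∀ a : O, Oct.norm a = 1 → (∀ σ, oa σ a = a) → ∀ k y,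
        sl (T (ins i (mo a k y))) i = mo a k (sl (T (ins i y)) i) := by
      intro a ha hr k y
      obtain ⟨r1, r2, r3⟩ := rt_mo ha hr (k - i)
      have b := h _ r1 r2 (ins i y)
      rw [r3, hs i y, r3, add_sub_cancel, hs] at b
      exact ins_inj b
    refine scalar ⟨fun x y => ?_, fun s x => ?_⟩ (fun a ha hr y => key a ha hr 1 y)
      fun a ha hr y => key a ha hr 2 y
    · rw [(ins_lin i).map_add, hT.map_add, sl_add]
    · rw [(ins_lin i).map_smul, hT.map_smul, sl_smul]
  choose z hz using hz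
  exact ⟨z, fun i y => by rw [hs, hz, (ins_lin i).map_smul]⟩

/-- The cyclic permutation. -/
def cyc (x : J) : J := ⟨x.d3, x.d1, x.d2, x.x3, x.x1, x.x2⟩

theorem rt_cyc : Rt cyc := by
  refine ⟨⟨fun x y => rfl, fun s x => rfl⟩, fun x => ?_, fun σ x => rfl⟩
  simp only [Alb.cub, cyc]
  rw [tr_cyc x.x3]
  ring

theorem cyc_ee (i : Fin 3) : cyc (ee i) = ee (i + 1) := by
  fin_cases i <;> ext1 <;> simp [cyc, ee, jm]

theorem cyc_ins (i : Fin 3) (y : O) : cyc (ins i y) = ins (i + 1) y := by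
  fin_cases i <;> ext1 <;> simp [cyc, ins, jm]

/-- The action of an elementary matrix. -/
def el (x : J) : J :=
  ⟨x.d1, x.d2 + bil x.x3 1 + x.d1, x.d3, x.x1 + star x.x2, x.x2, x.x3 + x.d1 • 1⟩

theorem rt_el : Rt el := by
  refine ⟨⟨fun x y => ?_, fun s x => ?_⟩, fun x => ?_, fun σ x => ?_⟩
  · ext1 <;> simp only [el, d1_add, d2_add, d3_add, x1_add, x2_add, x3_add, bil_add_left,
      star_add, add_smul] <;> abel
  · ext1 <;> simp only [el, d1_smul, d2_smul, d3_smul, x1_smul, x2_smul, x3_smul, bil_smul_left,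
      star_smul_oct, smul_add, mul_add, smul_smul]
  · have h2 : bil (1 : O) 1 = 2 := by rw [bil_self, Oct.norm_one, mul_one]
    simp only [Alb.cub, el, Oct.norm_add, Oct.norm_star, Oct.norm_smul, Oct.norm_one, add_mul,
      mul_add, bil_add_left, star_mul_self, smul_mul_oct, mul_smul_oct, one_mul, mul_one,
      bil_smul_left, bil_smul_right, h2]
    rw [bil_mul_left' x.x1 x.x2 1, one_mul]
    ring
  · ext1 <;> simp only [el, aj_eq, map_add, (oa_semi σ).add, (oa_semi σ).smul, oa_star, oa_one]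
    rw [← oa_bil, oa_one]

theorem el_ins : el (ins 2 1) = ins 2 1 + (2 : Om) • ee 1 := by
  have h2 : bil (1 : O) 1 = 2 := by rw [bil_self, Oct.norm_one, mul_one]
  ext1 <;> simp [el, ins, ee, jm, h2]

end Vale.Agent.P011Z.Cl.Comx

end
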